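import Vale.Agent.P095.H586.Defs

/-!
Finite groups: strong cocycle conjugacy improves to genuine conjugacy, by an isomorphism which is
approximately unitarily equivalent to the given map with invariant unitaries.
-/

set_option linter.all false

open Filter Topology
open scoped MultiplierAlgebra TensorProduct

namespace Vale.Agent.P095.H753

universe u w

section unital

variable {N : Type u} [CStarAlgebra N]

theorem norm_unitary_mul {v : N} (hv : v ∈ unitary N) (x : N) : ‖v * x‖ = ‖x‖ :=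
  CStarRing.norm_mem_unitary_mul _ hv

theorem norm_mul_unitary {v : N} (hv : v ∈ unitary N) (x : N) : ‖x * v‖ = ‖x‖ :=
  CStarRing.norm_mul_mem_unitary _ hv

/-- The absolute value of an element close to `1` is close to `1`. -/
theorem abs_close {x s : N} [PartialOrder N] [StarOrderedRing N] (hs : 0 ≤ s)
    (hss : s * s = star x * x) {ε : ℝ} (hε : ε ≤ 1) (hx : ‖x - 1‖ ≤ ε) : ‖s - 1‖ ≤ 3 * ε := by
  have hε0 : 0 ≤ ε := (norm_nonneg _).trans hx
  have hsa : star s = s := (IsSelfAdjoint.of_nonneg hs).star_eq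
  have e1 : (s + 1) * (s - 1) = star x * x - 1 := by
    rw [← hss]; noncomm_ring
  have e2 : star x * x - 1 = star (x - 1) * (x - 1) + star (x - 1) + (x - 1) := by
    rw [star_sub, star_one]; noncomm_ring
  have h1 : ‖star x * x - 1‖ ≤ 3 * ε := by
    rw [e2]
    have a1 : ‖star (x - 1) * (x - 1)‖ ≤ ε * 1 :=
      (norm_mul_le _ _).trans (mul_le_mul (by rwa [norm_star]) (hx.trans hε) (norm_nonneg _) hε0)
    have a2 : ‖star (x - 1)‖ ≤ ε := by rwa [norm_star]
    have a3 := norm_add_le (star (x - 1) * (x - 1) + star (x - 1)) (x - 1)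
    have a4 := norm_add_le (star (x - 1) * (x - 1)) (star (x - 1))
    linarith
  have h2 : star (s - 1) * (s - 1) ≤ star ((s + 1) * (s - 1)) * ((s + 1) * (s - 1)) := by
    have e3 : star ((s + 1) * (s - 1)) * ((s + 1) * (s - 1)) - star (s - 1) * (s - 1) =
        star (s - 1) * (s * s + (s + s)) * (s - 1) := by
      rw [star_mul, star_add, star_sub, star_one, hsa]; noncomm_ring
    have h3 : 0 ≤ star (s - 1) * (s * s + (s + s)) * (s - 1) := by
      refine star_left_conjugate_nonneg ?_ _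
      refine add_nonneg ?_ (add_nonneg hs hs)
      have := star_mul_self_nonneg s
      rwa [hsa] at this
    rw [← e3] at h3
    exact sub_nonneg.1 h3
  have h4 : ‖star (s - 1) * (s - 1)‖ ≤ ‖star ((s + 1) * (s - 1)) * ((s + 1) * (s - 1))‖ :=
    CStarAlgebra.norm_le_norm_of_nonneg_of_le (star_mul_self_nonneg _) h2
  rw [CStarRing.norm_star_mul_self, CStarRing.norm_star_mul_self, e1] at h4
  have h5 : ‖s - 1‖ ≤ ‖star x * x - 1‖ := by
    by_contra hcon
    rw [not_le] at hcon
    nlinarith [norm_nonneg (star x * x - 1), norm_nonneg (s - 1)]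
  exact h5.trans h1

/-- A cocycle of a finite group close to `1` is a coboundary, of a unitary close to `1`. -/
theorem coboundary {G : Type w} [Group G] [Finite G] (δ : G →* (N ≃⋆ₐ[ℂ] N)) (u : G → N)
    (hu : ∀ g, u g ∈ unitary N) (hc : ∀ g h, u (g * h) = u g * δ g (u h)) {ε : ℝ}
    (hε : ε ≤ 1 / 2) (h1 : ∀ g, ‖u g - 1‖ ≤ ε) :
    ∃ w ∈ unitary N, ‖w - 1‖ ≤ 4 * ε ∧ ∀ g, u g = w * δ g (star w) := by
  classical
  have := Fintype.ofFinite G
  have hε0 : 0 ≤ ε := (norm_nonneg _).trans (h1 1)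
  have hcard : (Fintype.card G : ℂ) ≠ 0 := Nat.cast_ne_zero.2 Fintype.card_ne_zero
  obtain ⟨x, hx⟩ : ∃ x : N, x = (Fintype.card G : ℂ)⁻¹ • ∑ g, u g := ⟨_, rfl⟩
  have hux : ∀ h, u h * δ h x = x := by
    intro h
    rw [hx, map_smul, map_sum, mul_smul_comm, Finset.mul_sum]
    congr 1
    conv_rhs => rw [← Equiv.sum_comp (Equiv.mulLeft h)]
    refine Finset.sum_congr rfl fun g _ => ?_
    rw [Equiv.coe_mulLeft, hc]
  have hx1 : ‖x - 1‖ ≤ ε := by
    have e : x - 1 = (Fintype.card G : ℂ)⁻¹ • ∑ g, (u g - 1) := by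
      rw [Finset.sum_sub_distrib, smul_sub, ← hx, Finset.sum_const, Finset.card_univ,
        ← Nat.cast_smul_eq_nsmul ℂ, smul_smul, inv_mul_cancel₀ hcard, one_smul]
    rw [e, norm_smul, norm_inv, Complex.norm_natCast]
    have hc0 : (0 : ℝ) < Fintype.card G := Nat.cast_pos.2 Fintype.card_pos
    have h2 : ‖∑ g, (u g - 1)‖ ≤ Fintype.card G * ε := by
      refine (norm_sum_le _ _).trans ?_
      refine (Finset.sum_le_sum fun g _ => h1 g).trans ?_
      rw [Finset.sum_const, Finset.card_univ, nsmul_eq_mul]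
    calc (Fintype.card G : ℝ)⁻¹ * ‖∑ g, (u g - 1)‖
        ≤ (Fintype.card G : ℝ)⁻¹ * (Fintype.card G * ε) :=
          mul_le_mul_of_nonneg_left h2 (inv_nonneg.2 hc0.le)
      _ = ε := by rw [← mul_assoc, inv_mul_cancel₀ hc0.ne', one_mul]
  have hxu : IsUnit x := by
    have h2 : ‖1 - x‖ < 1 := by rw [norm_sub_rev]; linarith
    have h3 := isUnit_one_sub_of_norm_lt_one h2
    rwa [sub_sub_cancel] at h3
  have hδx : ∀ g, δ g x = star (u g) * x := by
    intro g
    conv_rhs => rw [← hux g]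
    rw [← mul_assoc, Unitary.star_mul_self_of_mem (hu g), one_mul]
  letI := CStarAlgebra.spectralOrder N
  haveI := CStarAlgebra.spectralOrderedRing N
  have hb0 : 0 ≤ star x * x := star_mul_self_nonneg x
  obtain ⟨s, hs⟩ : ∃ s : N, s = CFC.sqrt (star x * x) := ⟨_, rfl⟩
  have hs0 : 0 ≤ s := by rw [hs]; exact CFC.sqrt_nonneg _
  have hss : s * s = star x * x := by rw [hs]; exact CFC.sqrt_mul_sqrt_self _ hb0
  have hsa : star s = s := (IsSelfAdjoint.of_nonneg hs0).star_eq
  have hsu : IsUnit s := by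
    have h2 : IsUnit (s ^ 2) := by
      rw [pow_two, hss]
      exact hxu.star.mul hxu
    exact (isUnit_pow_iff two_ne_zero).1 h2
  have hδs : ∀ g, δ g s = s := by
    intro g
    have h2 : δ g s * δ g s = star x * x := by
      rw [← map_mul, hss, map_mul, map_star, hδx, star_mul, star_star]
      rw [mul_assoc, ← mul_assoc (u g), Unitary.mul_star_self_of_mem (hu g), one_mul]
    have h3 : 0 ≤ δ g s := by
      have h4 : s = star (CFC.sqrt s) * CFC.sqrt s := by
        rw [(IsSelfAdjoint.of_nonneg (CFC.sqrt_nonneg s)).star_eq, CFC.sqrt_mul_sqrt_self _ hs0]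
      rw [h4, map_mul, map_star]
      exact star_mul_self_nonneg _
    have h4 := CFC.sqrt_unique h2 h3
    rw [← h4, hs]
  obtain ⟨r, hrs, hsr⟩ : ∃ r : N, r * s = 1 ∧ s * r = 1 :=
    ⟨hsu.unit.inv, hsu.val_inv_mul, hsu.mul_val_inv⟩
  have hra : star r = r := by
    have h2 : star r * s = 1 := by
      have := congrArg star hsr
      rwa [star_mul, hsa, star_one] at this
    calc star r = star r * (s * r) := by rw [hsr, mul_one]
      _ = r := by rw [← mul_assoc, h2, one_mul]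
  have hδr : ∀ g, δ g r = r := by
    intro g
    have h2 : δ g r * s = 1 := by
      conv_lhs => rw [← hδs g]
      rw [← map_mul, hrs, map_one]
    calc δ g r = δ g r * (s * r) := by rw [hsr, mul_one]
      _ = r := by rw [← mul_assoc, h2, one_mul]
  have hw1 : star (x * r) * (x * r) = 1 := by
    rw [star_mul, hra, mul_assoc, ← mul_assoc (star x), ← hss, ← mul_assoc, ← mul_assoc, hrs,
      one_mul, hsr]
  have hw2 : (x * r) * star (x * r) = 1 := by
    have h2 : (r * r * star x) * x = 1 := by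
      rw [mul_assoc, ← hss, mul_assoc, ← mul_assoc r s s, hrs, one_mul, hrs]
    rw [star_mul, hra]
    obtain ⟨y, hy1, hy2⟩ : ∃ y : N, x * y = 1 ∧ y * x = 1 :=
      ⟨hxu.unit.inv, hxu.mul_val_inv, hxu.val_inv_mul⟩
    have h3 : r * r * star x = y := by
      calc r * r * star x = (r * r * star x) * (x * y) := by rw [hy1, mul_one]
        _ = y := by rw [← mul_assoc, h2, one_mul]
    calc x * r * (r * star x) = x * (r * r * star x) := by noncomm_ring
      _ = 1 := by rw [h3, hy1]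
  have hw : x * r ∈ unitary N := Unitary.mem_iff.2 ⟨hw1, hw2⟩
  refine ⟨x * r, hw, ?_, fun g => ?_⟩
  · have h2 := abs_close hs0 hss (hε.trans (by norm_num)) hx1
    have e : x * r - 1 = (x * r) * (1 - s) + (x - 1) := by
      have : x * r * s = x := by rw [mul_assoc, hrs, mul_one]
      rw [mul_sub, mul_one, this]; abel
    rw [e]
    refine (norm_add_le _ _).trans ?_
    rw [norm_unitary_mul hw, norm_sub_rev]
    linarith
  · have h2 : δ g (star (x * r)) = star (x * r) * u g := by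
      rw [map_star, map_mul, hδx, hδr, mul_assoc, star_mul (star (u g)), star_star]
    rw [h2, ← mul_assoc, hw2, one_mul]

/-- A unitary which is almost invariant under a finite group is close to an invariant one. -/
theorem invariant_unitary {G : Type w} [Group G] [Finite G] (δ : G →* (N ≃⋆ₐ[ℂ] N)) {v : N}
    (hv : v ∈ unitary N) {ε : ℝ} (hε : ε ≤ 1 / 2) (h1 : ∀ g, ‖δ g v - v‖ ≤ ε) :
    ∃ w ∈ unitary N, ‖w - v‖ ≤ 4 * ε ∧ ∀ g, δ g w = w := by
  have hδv : ∀ g, δ g v ∈ unitary N := fun g => by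
    rw [Unitary.mem_iff, ← map_star, ← map_mul, ← map_mul, Unitary.star_mul_self_of_mem hv,
      Unitary.mul_star_self_of_mem hv, map_one]
    exact ⟨rfl, rfl⟩
  obtain ⟨w, hw, hw1, hw2⟩ := coboundary δ (fun g => star v * δ g v)
    (fun g => mul_mem (Unitary.star_mem hv) (hδv g)) (fun g h => by
      show star v * δ (g * h) v = star v * δ g v * δ g (star v * δ h v)
      have e : δ (g * h) v = δ g (δ h v) := by rw [map_mul]; rfl
      have e2 : δ g v * δ g (star v * δ h v) = δ g (δ h v) := by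
        rw [← map_mul, ← mul_assoc, Unitary.mul_star_self_of_mem hv, one_mul]
      rw [e, mul_assoc, e2]) hε (fun g => by
      have e : star v * δ g v - 1 = star v * (δ g v - v) := by
        rw [mul_sub, Unitary.star_mul_self_of_mem hv]
      rw [e, norm_unitary_mul (Unitary.star_mem hv)]
      exact h1 g)
  refine ⟨v * w, mul_mem hv hw, ?_, fun g => ?_⟩
  · have e : v * w - v = v * (w - 1) := by rw [mul_sub, mul_one]
    rw [e, norm_unitary_mul hv]
    exact hw1
  · have h2 := hw2 g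
    have h3 : δ g v = v * (w * δ g (star w)) := by
      rw [← h2, ← mul_assoc, Unitary.mul_star_self_of_mem hv, one_mul]
    have h4 : δ g (star w) * δ g w = 1 := by
      rw [← map_mul, Unitary.star_mul_self_of_mem hw, map_one]
    rw [map_mul, h3, mul_assoc, mul_assoc, h4, mul_one]

end unital

section mult

variable {B : Type u} [NonUnitalCStarAlgebra B]

/-- An automorphism as a continuous linear map. -/
noncomputable def autC (f : B ≃⋆ₐ[ℂ] B) : B →L[ℂ] B :=
  LinearMap.mkContinuous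
    { toFun := f
      map_add' := map_add f
      map_smul' := fun c x => map_smul f c x } 1
    (fun x => by simpa using NonUnitalStarAlgHom.norm_apply_le f x)

/-- The extension of an automorphism to the multiplier algebra, as a function. -/
noncomputable def mFun (f : B ≃⋆ₐ[ℂ] B) (x : 𝓜(ℂ, B)) : 𝓜(ℂ, B) where
  fst := (autC f).comp (x.fst.comp (autC f.symm))
  snd := (autC f).comp (x.snd.comp (autC f.symm))
  central := fun a b => by
    show f (x.snd (f.symm a)) * b = a * f (x.fst (f.symm b))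
    have h := congrArg f (x.central (f.symm a) (f.symm b))
    rw [map_mul, map_mul] at h
    simpa using h

theorem mFun_fst (f : B ≃⋆ₐ[ℂ] B) (x : 𝓜(ℂ, B)) (b : B) :
    (mFun f x).fst b = f (x.fst (f.symm b)) := rfl

theorem mFun_snd (f : B ≃⋆ₐ[ℂ] B) (x : 𝓜(ℂ, B)) (b : B) :
    (mFun f x).snd b = f (x.snd (f.symm b)) := rfl

theorem m_ext {x y : 𝓜(ℂ, B)} (h1 : ∀ b, x.fst b = y.fst b) (h2 : ∀ b, x.snd b = y.snd b) :
    x = y :=
  DoubleCentralizer.ext ℂ B x y (Prod.ext (ContinuousLinearMap.ext h1) (ContinuousLinearMap.ext h2))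

theorem m_ext_fst {x y : 𝓜(ℂ, B)} (h1 : ∀ b, x.fst b = y.fst b) : x = y := by
  have h2 : (x - y).fst = 0 := by
    refine ContinuousLinearMap.ext fun b => ?_
    rw [DoubleCentralizer.sub_fst]
    show x.fst b - y.fst b = 0
    rw [h1, sub_self]
  have h3 : ‖x - y‖ = 0 := by rw [← DoubleCentralizer.norm_fst, h2, norm_zero]
  exact sub_eq_zero.1 (norm_eq_zero.1 h3)

/-- The extension of an automorphism to the multiplier algebra. -/
noncomputable def mAut (f : B ≃⋆ₐ[ℂ] B) : 𝓜(ℂ, B) ≃⋆ₐ[ℂ] 𝓜(ℂ, B) where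
  toFun := mFun f
  invFun := mFun f.symm
  left_inv x := by
    refine m_ext (fun b => ?_) (fun b => ?_) <;>
      simp [mFun_fst, mFun_snd]
  right_inv x := by
    refine m_ext (fun b => ?_) (fun b => ?_) <;>
      simp [mFun_fst, mFun_snd]
  map_mul' x y := by
    refine m_ext (fun b => ?_) (fun b => ?_) <;>
      simp [mFun_fst, mFun_snd, DoubleCentralizer.mul_fst, DoubleCentralizer.mul_snd]
  map_add' x y := by
    refine m_ext (fun b => ?_) (fun b => ?_) <;>
      simp [mFun_fst, mFun_snd, DoubleCentralizer.add_fst, DoubleCentralizer.add_snd]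
  map_smul' c x := by
    refine m_ext (fun b => ?_) (fun b => ?_) <;>
      simp [mFun_fst, mFun_snd, DoubleCentralizer.smul_fst, DoubleCentralizer.smul_snd]
  map_star' x := by
    refine m_ext (fun b => ?_) (fun b => ?_) <;>
      simp [mFun_fst, mFun_snd, DoubleCentralizer.star_fst, DoubleCentralizer.star_snd,
        map_star]

/-- The extension of an action to the multiplier algebra. -/
noncomputable def mAct {G : Type w} [Group G] (β : G →* (B ≃⋆ₐ[ℂ] B)) :
    G →* (𝓜(ℂ, B) ≃⋆ₐ[ℂ] 𝓜(ℂ, B)) where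
  toFun g := mAut (β g)
  map_one' := by
    refine StarAlgEquiv.ext fun x => ?_
    refine m_ext (fun b => ?_) (fun b => ?_)
    · show (β 1) (x.fst ((β 1).symm b)) = x.fst b
      rw [map_one]; rfl
    · show (β 1) (x.snd ((β 1).symm b)) = x.snd b
      rw [map_one]; rfl
  map_mul' g h := by
    refine StarAlgEquiv.ext fun x => ?_
    refine m_ext (fun b => ?_) (fun b => ?_)
    · show (β (g * h)) (x.fst ((β (g * h)).symm b)) =
        β g (β h (x.fst ((β h).symm ((β g).symm b))))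
      rw [map_mul]; rfl
    · show (β (g * h)) (x.snd ((β (g * h)).symm b)) =
        β g (β h (x.snd ((β h).symm ((β g).symm b))))
      rw [map_mul]; rfl

theorem mAct_fst {G : Type w} [Group G] (β : G →* (B ≃⋆ₐ[ℂ] B)) (g : G) (x : 𝓜(ℂ, B)) (b : B) :
    (mAct β g x).fst b = β g (x.fst ((β g).symm b)) := rfl

theorem mAct_coe {G : Type w} [Group G] (β : G →* (B ≃⋆ₐ[ℂ] B)) (g : G) (b : B) :
    mAct β g (b : 𝓜(ℂ, B)) = ((β g b : B) : 𝓜(ℂ, B)) := by
  refine m_ext (fun c => ?_) (fun c => ?_)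
  · show β g (b * (β g).symm c) = β g b * c
    rw [map_mul]; simp
  · show β g ((β g).symm c * b) = c * β g b
    rw [map_mul]; simp

theorem norm_coeM (a : B) : ‖(a : 𝓜(ℂ, B))‖ = ‖a‖ := by
  rw [← DoubleCentralizer.norm_fst]
  exact ContinuousLinearMap.opNorm_mul_apply ℂ B a

theorem coeM_inj {a b : B} (h : (a : 𝓜(ℂ, B)) = (b : 𝓜(ℂ, B))) : a = b := by
  have h1 : ((a - b : B) : 𝓜(ℂ, B)) = 0 := by
    have h2 : ((a - b : B) : 𝓜(ℂ, B)) = (a : 𝓜(ℂ, B)) - (b : 𝓜(ℂ, B)) :=
      map_sub (DoubleCentralizer.coeHom (𝕜 := ℂ) (A := B)) a b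
    rw [h2, h, sub_self]
  have h3 : ‖a - b‖ = 0 := by rw [← norm_coeM, h1, norm_zero]
  exact sub_eq_zero.1 (norm_eq_zero.1 h3)

theorem cancel_right {y z : B} (h : ∀ c : B, y * c = z * c) : y = z := by
  have h1 : (y - z) * star (y - z) = 0 := by rw [sub_mul, h, sub_self]
  rw [CStarRing.mul_star_self_eq_zero_iff] at h1
  exact sub_eq_zero.mp h1

theorem cancel_left {y z : B} (h : ∀ c : B, c * y = c * z) : y = z := by
  have h1 : star (y - z) * (y - z) = 0 := by rw [mul_sub, h, sub_self]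
  rw [CStarRing.star_mul_self_eq_zero_iff] at h1
  exact sub_eq_zero.mp h1

theorem coe_mulM (a : B) (x : 𝓜(ℂ, B)) : (a : 𝓜(ℂ, B)) * x = ((x.snd a : B) : 𝓜(ℂ, B)) := by
  refine m_ext (fun b => ?_) (fun b => ?_)
  · show a * x.fst b = x.snd a * b
    exact (x.central a b).symm
  · show x.snd (b * a) = b * x.snd a
    refine cancel_right fun c => ?_
    rw [x.central, mul_assoc, mul_assoc, x.central]

theorem mulM_coe (a : B) (x : 𝓜(ℂ, B)) : x * (a : 𝓜(ℂ, B)) = ((x.fst a : B) : 𝓜(ℂ, B)) := by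
  refine m_ext (fun b => ?_) (fun b => ?_)
  · show x.fst (a * b) = x.fst a * b
    refine cancel_left fun c => ?_
    rw [← x.central, ← mul_assoc, ← mul_assoc, x.central]
  · show x.snd b * a = b * x.fst a
    exact x.central b a

/-- The element `y b star y` of `B`. -/
noncomputable def cj (y : 𝓜(ℂ, B)) (b : B) : B := (star y).snd (y.fst b)

theorem cj_coe (y : 𝓜(ℂ, B)) (b : B) :
    ((cj y b : B) : 𝓜(ℂ, B)) = y * (b : 𝓜(ℂ, B)) * star y := by
  rw [mulM_coe, coe_mulM]; rfl

theorem coeM_mul' (a b : B) : ((a * b : B) : 𝓜(ℂ, B)) = (a : 𝓜(ℂ, B)) * (b : 𝓜(ℂ, B)) :=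
  map_mul (DoubleCentralizer.coeHom (𝕜 := ℂ) (A := B)) a b

theorem coeM_add' (a b : B) : ((a + b : B) : 𝓜(ℂ, B)) = (a : 𝓜(ℂ, B)) + (b : 𝓜(ℂ, B)) :=
  map_add (DoubleCentralizer.coeHom (𝕜 := ℂ) (A := B)) a b

theorem coeM_smul' (c : ℂ) (b : B) : ((c • b : B) : 𝓜(ℂ, B)) = c • (b : 𝓜(ℂ, B)) :=
  map_smul (DoubleCentralizer.coeHom (𝕜 := ℂ) (A := B)) c b

theorem coeM_star' (b : B) : ((star b : B) : 𝓜(ℂ, B)) = star (b : 𝓜(ℂ, B)) :=
  map_star (DoubleCentralizer.coeHom (𝕜 := ℂ) (A := B)) b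

/-- Conjugation by a unitary multiplier. -/
noncomputable def adM (y : 𝓜(ℂ, B)) (hy : y ∈ unitary 𝓜(ℂ, B)) : B ≃⋆ₐ[ℂ] B where
  toFun := cj y
  invFun := cj (star y)
  left_inv b := coeM_inj (by
    rw [cj_coe, cj_coe, star_star, ← mul_assoc, ← mul_assoc,
      Unitary.star_mul_self_of_mem hy, one_mul, mul_assoc, Unitary.star_mul_self_of_mem hy,
      mul_one])
  right_inv b := coeM_inj (by
    rw [cj_coe, cj_coe, star_star, ← mul_assoc, ← mul_assoc,
      Unitary.mul_star_self_of_mem hy, one_mul, mul_assoc, Unitary.mul_star_self_of_mem hy,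
      mul_one])
  map_mul' a b := coeM_inj (by
    rw [coeM_mul', cj_coe, cj_coe, cj_coe, coeM_mul']
    calc y * ((a : 𝓜(ℂ, B)) * b) * star y = y * (a : 𝓜(ℂ, B)) * 1 * b * star y := by
          rw [mul_one]; simp only [mul_assoc]
      _ = _ := by rw [← Unitary.star_mul_self_of_mem hy]; simp only [mul_assoc])
  map_add' a b := coeM_inj (by
    rw [coeM_add', cj_coe, cj_coe, cj_coe, coeM_add', mul_add, add_mul])
  map_smul' c a := coeM_inj (by
    rw [coeM_smul', cj_coe, cj_coe, coeM_smul', mul_smul_comm, smul_mul_assoc])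
  map_star' a := coeM_inj (by
    rw [coeM_star', cj_coe, cj_coe, coeM_star', star_mul, star_mul, star_star, mul_assoc])

theorem adM_coe (y : 𝓜(ℂ, B)) (hy : y ∈ unitary 𝓜(ℂ, B)) (b : B) :
    ((adM y hy b : B) : 𝓜(ℂ, B)) = y * (b : 𝓜(ℂ, B)) * star y := cj_coe y b

end mult

open Vale.Agent.P095.H586

/-- For actions of a finite group, strong cocycle conjugacy gives genuine conjugacy: there is a
star-isomorphism `Ψ : A → B` with `Ψ (α_g(a)) = β_g(Ψ(a))`, and unitary multipliers `W n` of `B`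
which are fixed by `β` with `W_n i(a) W_n^* → Ψ(a)`. -/
theorem finite_conj {A B : Type u} [NonUnitalCStarAlgebra A] [NonUnitalCStarAlgebra B]
    {G : Type w} [Group G] [Finite G] {i : A → B} {α : G →* (A ≃⋆ₐ[ℂ] A)}
    {β : G →* (B ≃⋆ₐ[ℂ] B)} (h : IsStrongCocycleConj i α β) :
    ∃ (Ψ : A ≃⋆ₐ[ℂ] B) (W : ℕ → 𝓜(ℂ, B)), (∀ g a, Ψ (α g a) = β g (Ψ a)) ∧
      (∀ n, W n ∈ unitary 𝓜(ℂ, B)) ∧
      (∀ n g b, (W n).fst (β g b) = β g ((W n).fst b)) ∧
      ∀ a, Tendsto (fun n => W n * ((i a : B) : 𝓜(ℂ, B)) * star (W n)) atTop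
        (𝓝 ((Ψ a : B) : 𝓜(ℂ, B))) := by
  obtain ⟨Φ, u, V, hu, hc0, hΦ, hV, hlim, hcob0⟩ := h.conj
  obtain ⟨δ, hδ⟩ : ∃ δ : G →* (𝓜(ℂ, B) ≃⋆ₐ[ℂ] 𝓜(ℂ, B)), δ = mAct β := ⟨_, rfl⟩
  have hfst : ∀ g x b, (δ g x).fst b = β g (x.fst ((β g).symm b)) := by
    intro g x b; rw [hδ]; rfl
  have hcoe : ∀ g (b : B), δ g (b : 𝓜(ℂ, B)) = ((β g b : B) : 𝓜(ℂ, B)) := by
    intro g b; rw [hδ]; exact mAct_coe β g b
  have hc : ∀ g k, u (g * k) = u g * δ g (u k) := by
    intro g k
    refine m_ext_fst fun b => ?_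
    have := hc0 g k ((β g).symm b)
    rw [StarAlgEquiv.apply_symm_apply] at this
    rw [this, DoubleCentralizer.mul_fst]
    show _ = (u g).fst ((δ g (u k)).fst b)
    rw [hfst]
  have hβn : ∀ g b, ‖(β g).symm b‖ ≤ ‖b‖ := fun g b => NonUnitalStarAlgHom.norm_apply_le _ b
  have hcob : ∀ g (ε : ℝ), 0 < ε → ∀ᶠ n in atTop, ‖V n * star (δ g (V n)) - u g‖ ≤ ε := by
    intro g ε hε
    filter_upwards [hcob0 g ε hε] with n hn
    rw [← DoubleCentralizer.norm_fst]
    refine ContinuousLinearMap.opNorm_le_bound _ hε.le fun b => ?_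
    have h1 := hn ((β g).symm b)
    rw [StarAlgEquiv.apply_symm_apply] at h1
    have e : (V n * star (δ g (V n)) - u g).fst b =
        (V n).fst (β g ((star (V n)).fst ((β g).symm b))) - (u g).fst b := by
      rw [DoubleCentralizer.sub_fst, DoubleCentralizer.mul_fst, ← map_star]
      show (V n).fst ((δ g (star (V n))).fst b) - (u g).fst b = _
      rw [hfst]
    rw [e]
    exact h1.trans (mul_le_mul_of_nonneg_left (hβn g b) hε.le)
  have hall : ∀ ε : ℝ, 0 < ε → ∀ᶠ n in atTop, ∀ g, ‖V n * star (δ g (V n)) - u g‖ ≤ ε :=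
    fun ε hε => eventually_all.2 fun g => hcob g ε hε
  have hδu : ∀ g {x : 𝓜(ℂ, B)}, x ∈ unitary 𝓜(ℂ, B) → δ g x ∈ unitary 𝓜(ℂ, B) := by
    intro g x hx
    rw [Unitary.mem_iff, ← map_star, ← map_mul, ← map_mul, Unitary.star_mul_self_of_mem hx,
      Unitary.mul_star_self_of_mem hx, map_one]
    exact ⟨rfl, rfl⟩
  have hδm : ∀ g k (x : 𝓜(ℂ, B)), δ (g * k) x = δ g (δ k x) := by
    intro g k x; rw [map_mul]; rfl
  -- `u` is a coboundary
  obtain ⟨y, hy, huy⟩ : ∃ y ∈ unitary 𝓜(ℂ, B), ∀ g, u g = y * δ g (star y) := by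
    obtain ⟨n, hn⟩ := (hall (1 / 2) (by norm_num)).exists
    have hVV : star (V n) * V n = 1 := Unitary.star_mul_self_of_mem (hV n)
    have hVV' : V n * star (V n) = 1 := Unitary.mul_star_self_of_mem (hV n)
    obtain ⟨w, hw, -, hw2⟩ := coboundary δ (fun g => star (V n) * u g * δ g (V n))
      (fun g => mul_mem (mul_mem (Unitary.star_mem (hV n)) (hu g)) (hδu g (hV n)))
      (fun g k => by
        show star (V n) * u (g * k) * δ (g * k) (V n)
          = star (V n) * u g * δ g (V n) * δ g (star (V n) * u k * δ k (V n))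
        rw [hc, hδm, mul_assoc (star (V n) * u g), ← map_mul (δ g) (V n), mul_assoc (star (V n)) (u k),
          ← mul_assoc (V n), hVV', one_mul, map_mul]
        simp only [mul_assoc])
      le_rfl
      (fun g => by
        have e : star (V n) * u g * δ g (V n) - 1
            = -(star (V n) * (V n * star (δ g (V n)) - u g) * δ g (V n)) := by
          rw [mul_sub, sub_mul, ← mul_assoc (star (V n)) (V n), hVV, one_mul,
            Unitary.star_mul_self_of_mem (hδu g (hV n))]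
          abel
        rw [e, norm_neg, norm_mul_unitary (hδu g (hV n)),
          norm_unitary_mul (Unitary.star_mem (hV n))]
        exact hn g)
    refine ⟨V n * w, mul_mem (hV n) hw, fun g => ?_⟩
    have h1 := hw2 g
    have h2 : V n * (star (V n) * u g * δ g (V n)) * star (δ g (V n)) = u g := by
      rw [mul_assoc, mul_assoc, Unitary.mul_star_self_of_mem (hδu g (hV n)), mul_one, ← mul_assoc,
        hVV', one_mul]
    rw [← h2, h1, star_mul, map_mul, map_star (δ g) (V n)]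
    simp only [mul_assoc]
  have hyy : star y * y = 1 := Unitary.star_mul_self_of_mem hy
  have hδyy : ∀ g, δ g (star y) * δ g y = 1 := fun g => by rw [← map_mul, hyy, map_one]
  have hy' : star y ∈ unitary 𝓜(ℂ, B) := Unitary.star_mem hy
  have hΨ : ∀ a, ((adM (star y) hy' (Φ a) : B) : 𝓜(ℂ, B)) = star y * ((Φ a : B) : 𝓜(ℂ, B)) * y := by
    intro a
    rw [adM_coe, star_star]
  -- the unitaries
  obtain ⟨X, hX⟩ : ∃ X : ℕ → 𝓜(ℂ, B), ∀ n, X n = star y * V n := ⟨_, fun n => rfl⟩
  have hXu : ∀ n, X n ∈ unitary 𝓜(ℂ, B) := fun n => by rw [hX]; exact mul_mem hy' (hV n)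
  have hXδ : ∀ g n, ‖δ g (X n) - X n‖ = ‖V n * star (δ g (V n)) - u g‖ := by
    intro g n
    have e1 : star y * (V n * star (δ g (V n)) - u g) * δ g y = X n * star (δ g (X n)) - 1 := by
      rw [mul_sub, sub_mul, huy, hX, ← mul_assoc (star y) y, hyy, one_mul, hδyy, map_mul, star_mul,
        ← map_star (δ g) (star y), star_star]
      simp only [mul_assoc]
    have e2 : (X n * star (δ g (X n)) - 1) * δ g (X n) = X n - δ g (X n) := by
      rw [sub_mul, one_mul, mul_assoc, Unitary.star_mul_self_of_mem (hδu g (hXu n)), mul_one]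
    rw [norm_sub_rev, ← e2, norm_mul_unitary (hδu g (hXu n)), ← e1, norm_mul_unitary (hδu g hy),
      norm_unitary_mul hy']
  have := Fintype.ofFinite G
  obtain ⟨e, he⟩ : ∃ e : ℕ → ℝ, ∀ n, e n = ∑ g, ‖δ g (X n) - X n‖ := ⟨_, fun n => rfl⟩
  have hge : ∀ n g, ‖δ g (X n) - X n‖ ≤ e n := fun n g => by
    rw [he]
    exact Finset.single_le_sum (f := fun g => ‖δ g (X n) - X n‖) (fun _ _ => norm_nonneg _)
      (Finset.mem_univ g)
  have he0 : Tendsto e atTop (𝓝 0) := by
    have h1 : Tendsto (fun n => ∑ g, ‖δ g (X n) - X n‖) atTop (𝓝 (∑ g : G, (0 : ℝ))) := by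
      refine tendsto_finset_sum _ fun g _ => ?_
      rw [Metric.tendsto_nhds]
      intro ε hε
      filter_upwards [hcob g (ε / 2) (by linarith)] with n hn
      rw [hXδ, Real.dist_eq, sub_zero, abs_of_nonneg (norm_nonneg _)]
      linarith
    rw [Finset.sum_const_zero] at h1
    exact h1.congr fun n => (he n).symm
  have hW : ∀ n, ∃ W ∈ unitary 𝓜(ℂ, B), (∀ g, δ g W = W) ∧ (e n ≤ 1 / 2 → ‖W - X n‖ ≤ 4 * e n) := by
    intro n
    by_cases hn : e n ≤ 1 / 2
    · obtain ⟨W, h1, h2, h3⟩ := invariant_unitary δ (hXu n) hn (hge n)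
      exact ⟨W, h1, h3, fun _ => h2⟩
    · exact ⟨1, one_mem _, fun g => map_one _, fun h => absurd h hn⟩
  choose W hWu hWδ hWX using hW
  have hd : Tendsto (fun n => ‖W n - X n‖) atTop (𝓝 0) := by
    refine squeeze_zero' (Eventually.of_forall fun n => norm_nonneg _) ?_
      (by simpa using he0.const_mul 4)
    filter_upwards [he0.eventually (ge_mem_nhds (show (0 : ℝ) < 1 / 2 by norm_num))] with n hn
    exact hWX n hn
  refine ⟨Φ.trans (adM (star y) hy'), W, fun g a => ?_, hWu, fun n g b => ?_, fun a => ?_⟩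
  · refine coeM_inj ?_
    show ((adM (star y) hy' (Φ (α g a)) : B) : 𝓜(ℂ, B))
      = ((β g (adM (star y) hy' (Φ a)) : B) : 𝓜(ℂ, B))
    rw [← hcoe, hΨ, hΨ, hΦ, map_mul, map_mul, hcoe, huy, star_mul, ← map_star (δ g) (star y),
      star_star]
    calc star y * (y * δ g (star y) * ((β g (Φ a) : B) : 𝓜(ℂ, B)) * (δ g y * star y)) * y
        = (star y * y) * δ g (star y) * ((β g (Φ a) : B) : 𝓜(ℂ, B)) * δ g y * (star y * y) := by
          simp only [mul_assoc]
      _ = _ := by rw [hyy, one_mul, mul_one]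
  · have h1 := hfst g (W n) (β g b)
    rw [hWδ, StarAlgEquiv.symm_apply_apply] at h1
    exact h1
  · show Tendsto _ atTop (𝓝 ((adM (star y) hy' (Φ a) : B) : 𝓜(ℂ, B)))
    rw [hΨ]
    have h1 : Tendsto (fun n => X n * ((i a : B) : 𝓜(ℂ, B)) * star (X n)) atTop
        (𝓝 (star y * ((Φ a : B) : 𝓜(ℂ, B)) * y)) := by
      refine ((tendsto_const_nhds.mul (hlim a)).mul tendsto_const_nhds).congr fun n => ?_
      rw [hX, star_mul, star_star]
      simp only [mul_assoc]
    have h2 : Tendsto (fun n => W n * ((i a : B) : 𝓜(ℂ, B)) * star (W n)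
        - X n * ((i a : B) : 𝓜(ℂ, B)) * star (X n)) atTop (𝓝 0) := by
      refine squeeze_zero_norm (a := fun n => ‖W n - X n‖ * (2 * ‖((i a : B) : 𝓜(ℂ, B))‖))
        (fun n => ?_) (by simpa using hd.mul_const (2 * ‖((i a : B) : 𝓜(ℂ, B))‖))
      have e1 : W n * ((i a : B) : 𝓜(ℂ, B)) * star (W n) - X n * ((i a : B) : 𝓜(ℂ, B)) * star (X n)
          = (W n - X n) * ((i a : B) : 𝓜(ℂ, B)) * star (W n)
            + X n * (((i a : B) : 𝓜(ℂ, B)) * star (W n - X n)) := by
        rw [star_sub]; noncomm_ring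
      rw [e1]
      refine (norm_add_le _ _).trans ?_
      rw [norm_mul_unitary (Unitary.star_mem (hWu n)), norm_unitary_mul (hXu n)]
      have h3 := norm_mul_le (W n - X n) ((i a : B) : 𝓜(ℂ, B))
      have h4 := norm_mul_le ((i a : B) : 𝓜(ℂ, B)) (star (W n - X n))
      rw [norm_star] at h4
      linarith
    have h3 := h2.add h1
    rw [zero_add] at h3
    exact h3.congr fun n => by rw [sub_add_cancel]

end Vale.Agent.P095.H753
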